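import Vale.Agent.P269.G1I.Model
import Vale.Agent.P269.G1I.H598.Ser

set_option autoImplicit false

/-!
# Correlators with few primitive insertions, and linearity of `ser`
-/

namespace Vale.Agent.P269.G1.H654

open Finset.HasAntidiagonal (antidiagonal)
open Vale.Agent.P269.CI Vale.Agent.P269.G1

variable {X : CompleteIntersection} {F : ℕ → ℕ → List (Ins X) → ℂ}

/-! ### `ser` is linear -/

/-- `ser` as a linear map. -/
noncomputable def serL (X : CompleteIntersection) : (ℕ → List (Ins X) → ℂ) →ₗ[ℂ] RR X where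
  toFun := ser
  map_add' A B := by
    funext α
    change ((∏ i, (α i).factorial : ℕ) : ℚ)⁻¹ • (PowerSeries.mk fun d => (A + B) d _) =
      ((∏ i, (α i).factorial : ℕ) : ℚ)⁻¹ • (PowerSeries.mk fun d => A d _) +
      ((∏ i, (α i).factorial : ℕ) : ℚ)⁻¹ • (PowerSeries.mk fun d => B d _)
    rw [← smul_add]
    congr 1
  map_smul' c A := by
    funext α
    change ((∏ i, (α i).factorial : ℕ) : ℚ)⁻¹ • (PowerSeries.mk fun d => (c • A) d _) =
      c • ((∏ i, (α i).factorial : ℕ) : ℚ)⁻¹ • (PowerSeries.mk fun d => A d _)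
    rw [smul_comm]
    congr 1

theorem serL_apply (A : ℕ → List (Ins X) → ℂ) : serL X A = ser A := rfl

theorem ser_congr {A B : ℕ → List (Ins X) → ℂ}
    (h : ∀ d (L : List (Fin (X.dim + 1))), A d (L.map (hpow X)) = B d (L.map (hpow X))) :
    ser A = ser B := by
  unfold ser
  congr 1
  funext L
  congr 1
  funext d
  exact h d L

theorem ser_zero {A : ℕ → List (Ins X) → ℂ}
    (h : ∀ d (L : List (Fin (X.dim + 1))), A d (L.map (hpow X)) = 0) : ser A = 0 := by
  rw [ser_congr (B := 0) h, ← serL_apply, map_zero]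

theorem ser_smul' (c : ℂ) (A : ℕ → List (Ins X) → ℂ) :
    ser (fun d L => c * A d L) = c • ser A := by
  have h := (serL X).map_smul c A
  rw [serL_apply, serL_apply] at h
  rw [← h]
  rfl

/-! ### Products -/

theorem symS_mulS {A B : ℕ → List (Ins X) → ℂ} (hA : SymS A) (hB : SymS B) :
    SymS (mulS A B) := by
  intro d L M h
  unfold mulS
  refine Finset.sum_congr rfl fun e _ => ?_
  rw [H598.shuffle_hpow, H598.shuffle_hpow]
  exact H598.shf_perm h _ _ (fun L M h => hA e.1 L M h) (fun L M h => hB e.2 L M h)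

/-! ### Symmetry -/

theorem par_of_isAmb {y : Ins X} (h : IsAmb X y) : par X y.1 = false := by
  obtain ⟨j, hj⟩ := h
  rw [hj]
  rfl

theorem isAmb_hpow (j : Fin (X.dim + 1)) : IsAmb X (hpow X j) := ⟨j, rfl⟩

theorem isAmb_map (L : List (Fin (X.dim + 1))) : ∀ y ∈ L.map (hpow X), IsAmb X y := by
  intro y hy
  obtain ⟨j, _, rfl⟩ := List.mem_map.1 hy
  exact isAmb_hpow j

theorem F_move (hF : IsGW X F) (g d : ℕ) (x : Ins X) : ∀ (P : List (Ins X)),
    (∀ y ∈ P, IsAmb X y) → ∀ L Q, F g d (L ++ (P ++ x :: Q)) = F g d (L ++ x :: (P ++ Q)) := by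
  intro P
  induction P with
  | nil => intros; rfl
  | cons a P ih =>
    intro hP L Q
    have h1 := ih (fun y hy => hP y (List.mem_cons_of_mem _ hy)) (L ++ [a]) Q
    rw [List.append_assoc, List.append_assoc] at h1
    have h2 := hF.symm g d L (P ++ Q) a x
    have h3 : sgn (par X a.1) (par X x.1) = 1 := by
      rw [par_of_isAmb (hP a List.mem_cons_self)]
      simp [sgn]
    rw [h3, one_mul] at h2
    rw [List.cons_append]
    exact h1.trans h2

/-- Permutations of even insertions. -/
theorem F_perm (hF : IsGW X F) (g d : ℕ) {L M : List (Ins X)} (h : L.Perm M)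
    (hL : ∀ y ∈ L, IsAmb X y) : ∀ R, F g d (R ++ L) = F g d (R ++ M) := by
  induction h with
  | nil => intro R; rfl
  | cons x _ ih =>
    intro R
    have := ih (fun y hy => hL y (List.mem_cons_of_mem _ hy)) (R ++ [x])
    simpa using this
  | swap x y l =>
    intro R
    have h2 := hF.symm g d R l y x
    have h3 : sgn (par X y.1) (par X x.1) = 1 := by
      rw [par_of_isAmb (hL y List.mem_cons_self)]
      simp [sgn]
    rw [h3, one_mul] at h2
    exact h2
  | trans h1 _ ih1 ih2 =>
    intro R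
    rw [ih1 hL R, ih2 (fun y hy => hL y (h1.mem_iff.2 hy)) R]

theorem isAmb_append {P Q : List (Ins X)} (hP : ∀ y ∈ P, IsAmb X y) (hQ : ∀ y ∈ Q, IsAmb X y) :
    ∀ y ∈ P ++ Q, IsAmb X y := by
  intro y hy
  rcases List.mem_append.1 hy with h | h
  · exact hP y h
  · exact hQ y h

/-- The series of a correlator with ambient prefix does not depend on the order. -/
theorem ser_perm (hF : IsGW X F) (g : ℕ) {P Q : List (Ins X)} (h : P.Perm Q)
    (hP : ∀ y ∈ P, IsAmb X y) : ser (cor F g P) = ser (cor F g Q) := by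
  refine ser_congr fun d L => ?_
  unfold cor
  have := F_perm hF g d (h.append_right (L.map (hpow X)))
    (isAmb_append hP (isAmb_map L)) []
  simpa using this

/-! ### One primitive insertion -/

theorem ser_prim (hF : IsGW X F) (h1 : IsGenusOne F) (g : ℕ) (P Q : List (Ins X)) (p : X.Prim)
    (m : ℕ) (hP : ∀ y ∈ P, IsAmb X y) (hQ : ∀ y ∈ Q, IsAmb X y) :
    ser (cor F g (P ++ (Sum.inr p, m) :: Q)) = 0 := by
  refine ser_zero fun d L => ?_
  unfold cor
  have h2 := F_move hF g d (Sum.inr p, m) P hP [] (Q ++ L.map (hpow X))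
  rw [List.nil_append, List.nil_append] at h2
  rw [List.append_assoc, List.cons_append, h2]
  exact h1.mono1 g d p m _ (isAmb_append hP (isAmb_append hQ (isAmb_map L)))

/-! ### Two primitive insertions -/

/-- The series of the two-point function on the primitive part. -/
noncomputable def lamP (h1 : IsGenusOne F) (P : List (Ins X)) : RR X :=
  ser (fun d L => Classical.choose h1.mono2 0 0 d (P ++ L))

theorem lamc_eq (h1 : IsGenusOne F) (i : Fin (X.dim + 1)) : lamc h1 i = lamP h1 [hpow X i] := rfl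

theorem ser_prim2 (h1 : IsGenusOne F) (Q : List (Ins X)) (p q : X.Prim)
    (hQ : ∀ y ∈ Q, IsAmb X y) :
    ser (cor F 0 ((Sum.inr p, 0) :: (Sum.inr q, 0) :: Q)) = X.form p q • lamP h1 Q := by
  unfold lamP
  rw [← ser_smul']
  refine ser_congr fun d L => ?_
  exact Classical.choose_spec h1.mono2 d p q 0 0 _ (isAmb_append hQ (isAmb_map L))

theorem ser_prim2' (hF : IsGW X F) (h1 : IsGenusOne F) (P : List (Ins X)) (p q : X.Prim)
    (hP : ∀ y ∈ P, IsAmb X y) :
    ser (cor F 0 (P ++ [(Sum.inr p, 0), (Sum.inr q, 0)])) = X.form p q • lamP h1 P := by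
  rw [← ser_prim2 h1 P p q hP]
  refine ser_congr fun d L => ?_
  unfold cor
  have h2 := F_move hF 0 d (Sum.inr p, 0) P hP [] ((Sum.inr q, 0) :: L.map (hpow X))
  rw [List.nil_append, List.nil_append] at h2
  have h3 := F_move hF 0 d (Sum.inr q, 0) P hP [(Sum.inr p, 0)] (L.map (hpow X))
  rw [List.append_assoc]
  exact h2.trans h3

theorem exists_form_ne (v : X.Prim) : ∃ s, X.form v s ≠ 0 := by
  by_contra h
  push Not at h
  apply X.form_nondeg
  exact Matrix.det_eq_zero_of_row_eq_zero v fun s => h s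

theorem symS_lamP (hF : IsGW X F) (h1 : IsGenusOne F) (v : X.Prim) (P : List (Ins X))
    (hP : ∀ y ∈ P, IsAmb X y) :
    SymS (X := X) (fun d L => Classical.choose h1.mono2 0 0 d (P ++ L)) := by
  obtain ⟨s, hs⟩ := exists_form_ne v
  intro d L M h
  have e : ∀ L : List (Fin (X.dim + 1)),
      Classical.choose h1.mono2 0 0 d (P ++ L.map (hpow X)) =
      (X.form v s)⁻¹ * F 0 d ((Sum.inr v, 0) :: (Sum.inr s, 0) :: (P ++ L.map (hpow X))) := by
    intro L
    rw [Classical.choose_spec h1.mono2 d v s 0 0 _ (isAmb_append hP (isAmb_map L)), ← mul_assoc,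
      inv_mul_cancel₀ hs, one_mul]
  simp only [e]
  congr 1
  exact F_perm hF 0 d ((h.map (hpow X)).append_left P) (isAmb_append hP (isAmb_map L))
    [(Sum.inr v, 0), (Sum.inr s, 0)]

theorem pderiv_lamc' (hF : IsGW X F) (h1 : IsGenusOne F) (v : X.Prim) (i j : Fin (X.dim + 1)) :
    MvPowerSeries.pderiv (PowerSeries ℂ) i (lamc h1 j) = lamP h1 [hpow X j, hpow X i] := by
  rw [lamc_eq, lamP, H598.pderiv_ser _ (symS_lamP hF h1 v [hpow X j] (by
    intro y hy
    rw [List.mem_singleton] at hy
    rw [hy]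
    exact isAmb_hpow j))]
  rfl

theorem lamP_swap (hF : IsGW X F) (h1 : IsGenusOne F) (v : X.Prim) (i j : Fin (X.dim + 1)) :
    lamP h1 [hpow X j, hpow X i] = lamP h1 [hpow X i, hpow X j] := by
  refine ser_congr fun d L => ?_
  have h := symS_lamP hF h1 v [] (by simp) d (j :: i :: L) (i :: j :: L) (List.Perm.swap i j L)
  exact h

end Vale.Agent.P269.G1.H654
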