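import Vale.Agent.P269.G1I.Alg

set_option autoImplicit false

/-!
# The term of Getzler's relation is multilinear over the functions
-/

namespace Vale.Agent.P269.G1.H654

variable {R A O : Type*} [CommRing R] [Algebra ℚ R] [CommRing A] [Algebra R A]
    [Ring O] [Algebra R O] (S : Frob R A O)

theorem H_add_left (x x' y : A) : S.H (x + x') y = S.H x y + S.H x' y := by
  simp only [Frob.H, S.der_add_left, S.nab_add_left, map_add]; ring

theorem H_smul_left (g : R) (x y : A) : S.H (g • x) y = g * S.H x y := by
  simp only [Frob.H, S.der_smul_left, S.nab_smul_left, map_smul, smul_eq_mul]; ring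

theorem H_add_right (x y y' : A) : S.H x (y + y') = S.H x y + S.H x y' := by
  simp only [Frob.H, map_add, S.der_add, S.nab_add]; ring

theorem H_smul_right (g : R) (x y : A) : S.H x (g • y) = g * S.H x y := by
  simp only [Frob.H, map_smul, smul_eq_mul, S.der_mul, S.nab_smul, map_add]; ring

theorem c4_add1 (x x' y z : A) : S.c4 (x + x') y z = S.c4 x y z + S.c4 x' y z := by
  simp only [Frob.c4, S.nab_add_left]; ring

theorem c4_smul1 (g : R) (x y z : A) : S.c4 (g • x) y z = g • S.c4 x y z := by
  simp only [Frob.c4, S.nab_smul_left, smul_mul_assoc, mul_smul_comm, smul_sub]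

theorem c4_add2 (x y y' z : A) : S.c4 x (y + y') z = S.c4 x y z + S.c4 x y' z := by
  simp only [Frob.c4, add_mul, S.nab_add]; ring

theorem c4_smul2 (g : R) (x y z : A) : S.c4 x (g • y) z = g • S.c4 x y z := by
  simp only [Frob.c4, smul_mul_assoc, S.nab_smul, add_mul, smul_sub]
  abel

theorem c4_add3 (x y z z' : A) : S.c4 x y (z + z') = S.c4 x y z + S.c4 x y z' := by
  simp only [Frob.c4, mul_add, S.nab_add]; ring

theorem c4_smul3 (g : R) (x y z : A) : S.c4 x y (g • z) = g • S.c4 x y z := by
  simp only [Frob.c4, mul_smul_comm, S.nab_smul, mul_add, smul_sub]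
  abel

theorem c5_add1 (w w' x y z : A) : S.c5 (w + w') x y z = S.c5 w x y z + S.c5 w' x y z := by
  simp only [Frob.c5, S.nab_add_left, c4_add1, c4_add2, c4_add3]; ring

theorem c5_smul1 (g : R) (w x y z : A) : S.c5 (g • w) x y z = g • S.c5 w x y z := by
  simp only [Frob.c5, S.nab_smul_left, c4_smul1, c4_smul2, c4_smul3, smul_sub]

theorem c5_add2 (w x x' y z : A) : S.c5 w (x + x') y z = S.c5 w x y z + S.c5 w x' y z := by
  simp only [Frob.c5, S.nab_add, c4_add1]; ring

theorem c5_smul2 (g : R) (w x y z : A) : S.c5 w (g • x) y z = g • S.c5 w x y z := by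
  simp only [Frob.c5, c4_smul1, S.nab_smul, c4_add1, smul_sub]
  abel

theorem c5_add3 (w x y y' z : A) : S.c5 w x (y + y') z = S.c5 w x y z + S.c5 w x y' z := by
  simp only [Frob.c5, S.nab_add, c4_add2]; ring

theorem c5_smul3 (g : R) (w x y z : A) : S.c5 w x (g • y) z = g • S.c5 w x y z := by
  simp only [Frob.c5, c4_smul2, S.nab_smul, c4_add2, smul_sub]
  abel

theorem c5_add4 (w x y z z' : A) : S.c5 w x y (z + z') = S.c5 w x y z + S.c5 w x y z' := by
  simp only [Frob.c5, S.nab_add, c4_add3]; ring

theorem c5_smul4 (g : R) (w x y z : A) : S.c5 w x y (g • z) = g • S.c5 w x y z := by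
  simp only [Frob.c5, c4_smul3, S.nab_smul, c4_add3, smul_sub]
  abel

theorem nabO_sub (x : A) (a b : O) : S.nabO x (a - b) = S.nabO x a - S.nabO x b := by
  have h := S.nabO_add x (a - b) b
  rw [sub_add_cancel] at h
  rw [h, add_sub_cancel_right]

theorem c4O_symm' (x y : A) : S.c4O x y = S.c4O y x := S.c4O_symm x y

theorem c4O_add2 (x y y' : A) : S.c4O x (y + y') = S.c4O x y + S.c4O x y' := by
  simp only [Frob.c4O, map_add, S.nabO_add, S.nab_add]
  abel

theorem c4O_smul2 (g : R) (x y : A) : S.c4O x (g • y) = g • S.c4O x y := by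
  simp only [Frob.c4O, map_smul, S.nabO_smul, S.nab_smul, map_add, smul_sub]
  abel

theorem c4O_add1 (x x' y : A) : S.c4O (x + x') y = S.c4O x y + S.c4O x' y := by
  rw [c4O_symm', c4O_add2, c4O_symm' S y x, c4O_symm' S y x']

theorem c4O_smul1 (g : R) (x y : A) : S.c4O (g • x) y = g • S.c4O x y := by
  rw [c4O_symm', c4O_smul2, c4O_symm' S y x]

/-- The term of Getzler's relation as a multilinear map. -/
def termM : MultilinearMap R (fun _ : Fin 4 => A) R where
  toFun := S.term
  map_update_add' := by
    intro inst m i x y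
    have hinst : inst = instDecidableEqFin 4 := Subsingleton.elim _ _
    subst hinst
    fin_cases i <;>
    · simp only [Frob.term, Function.update, Fin.isValue, Fin.zero_eta, Fin.mk_one, Fin.reduceFinMk,
        Fin.reduceEq, eq_rec_constant, dite_eq_ite, ↓reduceIte, add_mul, mul_add,
        H_add_left, H_add_right, c4_add1, c4_add2, c4_add3, c5_add1, c5_add2, c5_add3, c5_add4,
        c4O_add1, c4O_add2, map_add, smul_add, one_ne_zero, zero_ne_one]
      ring
  map_update_smul' := by
    intro inst m i c x
    have hinst : inst = instDecidableEqFin 4 := Subsingleton.elim _ _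
    subst hinst
    fin_cases i <;>
    · simp only [Frob.term, Function.update, Fin.isValue, Fin.zero_eta, Fin.mk_one, Fin.reduceFinMk,
        Fin.reduceEq, eq_rec_constant, dite_eq_ite, ↓reduceIte, smul_mul_assoc,
        mul_smul_comm, H_smul_left, H_smul_right, c4_smul1, c4_smul2, c4_smul3, c5_smul1, c5_smul2,
        c5_smul3, c5_smul4, c4O_smul1, c4O_smul2, map_smul, smul_eq_mul, one_ne_zero, zero_ne_one,
        mul_sub, mul_add]
      ring

theorem termM_apply (v : Fin 4 → A) : termM S v = S.term v := rfl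

/-- It is enough to check Getzler's relation on a basis. -/
theorem getzler_of_basis {ι : Type*} (e : Module.Basis ι R A)
    (h : ∀ w : Fin 4 → ι, ∑ σ : Equiv.Perm (Fin 4), S.term (fun i => e (w (σ i))) = 0) :
    S.Getzler := by
  have key : (∑ σ : Equiv.Perm (Fin 4), (termM S).domDomCongr σ) = 0 := by
    refine Module.Basis.ext_multilinear (fun _ => e) fun w => ?_
    rw [_root_.sum_apply, _root_.zero_apply]
    exact h w
  intro v
  have h2 := congrArg (fun f => f v) key
  simp only [_root_.sum_apply, _root_.zero_apply] at h2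
  exact h2

end Vale.Agent.P269.G1.H654
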